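import Mathlib

set_option autoImplicit false

/-!
# P181, NR, second step: three estimates for the logarithms (Mathlib only)
-/

namespace Vale.Agent.P181.NR.H761

open Finset

theorem pow_div_fact_le (k : ℕ) (y : ℝ) (hy : 0 ≤ y) :
    (k * y) ^ k / (k.factorial : ℝ) ≤ (Real.exp 1 * y) ^ k := by
  have h := Real.pow_div_factorial_le_exp (k : ℝ) (Nat.cast_nonneg k) k
  rw [mul_pow, mul_pow, mul_comm ((k : ℝ) ^ k), mul_div_assoc, mul_comm]
  refine mul_le_mul_of_nonneg_right ?_ (by positivity)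
  rwa [← Real.exp_nat_mul, mul_one]

/-- **(E1)** -/
theorem log_choose_le (a x : ℕ) (ha : 1 ≤ a) :
    Real.log ((a + x).choose x) ≤ a * (1 + Real.log (1 + x / a)) := by
  have ha0 : (0 : ℝ) < a := by exact_mod_cast ha
  have h0 : (0 : ℝ) < (a + x).choose x := by exact_mod_cast Nat.choose_pos (Nat.le_add_left _ _)
  have h1 : ((a + x).choose x : ℝ) ≤ (Real.exp 1 * (1 + x / a)) ^ a := by
    have h2 : (a + x).choose x = (a + x).choose a := by
      rw [Nat.choose_symm_add]
    rw [h2]
    refine (Nat.choose_le_pow_div a (a + x)).trans ?_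
    have h3 := pow_div_fact_le a (1 + x / a) (by positivity)
    have h4 : (a : ℝ) * (1 + x / a) = ((a + x : ℕ) : ℝ) := by
      push_cast
      field_simp
    rwa [h4] at h3
  have h5 : Real.log ((Real.exp 1 * (1 + x / a)) ^ a) = a * (1 + Real.log (1 + x / a)) := by
    rw [Real.log_pow, Real.log_mul (Real.exp_pos 1).ne' (by positivity), Real.log_exp]
  rw [← h5]
  exact Real.log_le_log h0 h1

/-- **(E2)** -/
theorem log_side (n B a : ℕ) (hn : 1 ≤ n) (hB : 1 ≤ B) :
    Real.log ((n * B).factorial * ((n + n * a).choose n : ℝ) ^ B) ≤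
      n * B * (Real.log (n * B) + 1 + Real.log (1 + a)) := by
  have hn0 : (0 : ℝ) < n := by exact_mod_cast hn
  have hB0 : (0 : ℝ) < B := by exact_mod_cast hB
  have h0 : (0 : ℝ) < (n * B).factorial := by exact_mod_cast Nat.factorial_pos _
  have h1 : (0 : ℝ) < (n + n * a).choose n := by
    exact_mod_cast Nat.choose_pos (Nat.le_add_right _ _)
  rw [Real.log_mul h0.ne' (by positivity), Real.log_pow]
  have h2 : Real.log ((n * B).factorial : ℝ) ≤ n * B * Real.log (n * B) := by
    have h3 : ((n * B).factorial : ℝ) ≤ ((n * B : ℕ) : ℝ) ^ (n * B) := by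
      exact_mod_cast Nat.factorial_le_pow (n * B)
    have h4 := Real.log_le_log h0 h3
    rw [Real.log_pow] at h4
    push_cast at h4
    exact h4
  have h5 : Real.log ((n + n * a).choose n : ℝ) ≤ n * (1 + Real.log (1 + a)) := by
    have h6 : ((n + n * a).choose n : ℝ) ≤ (Real.exp 1 * (1 + a)) ^ n := by
      refine (Nat.choose_le_pow_div n (n + n * a)).trans ?_
      have h3 := pow_div_fact_le n (1 + (a : ℝ)) (by positivity)
      have h4 : (n : ℝ) * (1 + a) = ((n + n * a : ℕ) : ℝ) := by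
        push_cast
        ring
      rwa [h4] at h3
    have h7 := Real.log_le_log h1 h6
    rwa [Real.log_pow, Real.log_mul (Real.exp_pos 1).ne' (by positivity), Real.log_exp] at h7
  have h8 := mul_le_mul_of_nonneg_left h5 hB0.le
  have h9 : n * B * (Real.log (n * B) + 1 + Real.log (1 + a)) =
      n * B * Real.log (n * B) + B * (n * (1 + Real.log (1 + (a : ℝ)))) := by ring
  rw [h9]
  linarith

theorem log_max (x y : ℕ) (hy : 1 ≤ y) :
    max 0 (Real.log x - Real.log (2 * y)) ≤ Real.log ((max 1 (x / y) : ℕ) : ℝ) := by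
  have hy0 : (0 : ℝ) < y := by exact_mod_cast hy
  have hy1 : (1 : ℝ) ≤ y := by exact_mod_cast hy
  have h0 : (0 : ℝ) ≤ Real.log ((max 1 (x / y) : ℕ) : ℝ) := by
    apply Real.log_nonneg
    exact_mod_cast le_max_left 1 (x / y)
  refine max_le h0 ?_
  by_cases h : y ≤ x
  · have h1 : 1 ≤ x / y := (Nat.one_le_div_iff (by omega)).2 h
    have h2 : max 1 (x / y) = x / y := max_eq_right h1
    rw [h2]
    have h3 : x ≤ 2 * y * (x / y) := by
      have h4 := Nat.lt_mul_div_succ x (show 0 < y by omega)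
      have h5 : y * (x / y + 1) ≤ y * (2 * (x / y)) := Nat.mul_le_mul_left _ (by omega)
      have h6 : y * (2 * (x / y)) = 2 * y * (x / y) := by ring
      omega
    have h7 : (x : ℝ) ≤ 2 * y * ((x / y : ℕ) : ℝ) := by exact_mod_cast h3
    have hx0 : (0 : ℝ) < x := by exact_mod_cast (by omega : 0 < x)
    have h8 : (0 : ℝ) < ((x / y : ℕ) : ℝ) := by exact_mod_cast h1
    have h9 := Real.log_le_log hx0 h7
    rw [Real.log_mul (by positivity) h8.ne'] at h9
    linarith
  · rcases Nat.eq_zero_or_pos x with h1 | h1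
    · subst h1
      have h2 : 0 ≤ Real.log (2 * (y : ℝ)) := Real.log_nonneg (by linarith)
      simp only [Nat.cast_zero, Real.log_zero]
      linarith
    · have hx0 : (0 : ℝ) < x := by exact_mod_cast h1
      have h2 : (x : ℝ) ≤ 2 * y := by
        have : (x : ℝ) ≤ y := by exact_mod_cast (by omega : x ≤ y)
        linarith
      have h3 := Real.log_le_log hx0 h2
      linarith

/-- **(E3)** -/
theorem log_main {m : ℕ} (x : Fin m → ℕ) (y e B : ℕ) (hy : 1 ≤ y) :
    (e : ℝ) * B * ∑ i : Fin m, max (0 : ℝ) (Real.log (x i) - Real.log (2 * y)) ≤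
      Real.log (((∏ i, max 1 (x i / y) ^ e) ^ B : ℕ) : ℝ) := by
  have h1 : Real.log (((∏ i, max 1 (x i / y) ^ e) ^ B : ℕ) : ℝ) =
      (e : ℝ) * B * ∑ i : Fin m, Real.log ((max 1 (x i / y) : ℕ) : ℝ) := by
    have h2 : ∀ i : Fin m, i ∈ (univ : Finset (Fin m)) →
        ((max 1 (x i / y) ^ e : ℕ) : ℝ) ≠ 0 := fun i _ => by
      have h3 : 0 < max 1 (x i / y) ^ e := pow_pos (lt_of_lt_of_le one_pos (le_max_left _ _)) _
      exact_mod_cast h3.ne'
    have h4 : ∑ i : Fin m, Real.log ((max 1 (x i / y) ^ e : ℕ) : ℝ) =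
        (e : ℝ) * ∑ i : Fin m, Real.log ((max 1 (x i / y) : ℕ) : ℝ) := by
      rw [Finset.mul_sum (univ : Finset (Fin m))]
      refine Finset.sum_congr rfl fun i _ => ?_
      rw [Nat.cast_pow, Real.log_pow]
    rw [Nat.cast_pow, Real.log_pow, Nat.cast_prod, Real.log_prod h2, h4]
    ring
  rw [h1]
  refine mul_le_mul_of_nonneg_left ?_ (by positivity)
  exact Finset.sum_le_sum (s := (univ : Finset (Fin m))) fun i _ => log_max (x i) y hy

end Vale.Agent.P181.NR.H761
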