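import Vale.Agent.P181.R2.H959.FMul
import Vale.Agent.P181.NR.Defs

set_option autoImplicit false

/-!
# P181, NR, block N4: products of highest weight vectors (leading monomials)
-/

open scoped TensorProduct

namespace Vale.Agent.P181.NR.H761

open MvPolynomial Finset

variable {d : ℕ}

/-- the leading exponents of a space of polynomials of degree `p` -/
theorem sum_degree {f : MvPolynomial (Fin d) ℂ} {p : ℕ} (hf : f.IsHomogeneous p) (h0 : f ≠ 0) :
    (MonomialOrder.lex (σ := Fin d)).degree f ∈ finsuppAntidiag (univ : Finset (Fin d)) p := by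
  have h1 : coeff ((MonomialOrder.lex (σ := Fin d)).degree f) f ≠ 0 :=
    MonomialOrder.coeff_degree_ne_zero_iff.2 h0
  have h2 := hf h1
  rw [mem_finsuppAntidiag]
  refine ⟨?_, subset_univ _⟩
  rw [← h2, Finsupp.weight_apply, Finsupp.sum_fintype _ _ (by simp)]
  simp

open Classical in
/-- the leading exponents -/
noncomputable def ins {K : Type} (F : K → MvPolynomial (Fin d) ℂ) (p : ℕ) :
    Finset (Fin d →₀ ℕ) :=
  (finsuppAntidiag (univ : Finset (Fin d)) p).filter fun u =>
    ∃ x, F x ≠ 0 ∧ (MonomialOrder.lex (σ := Fin d)).degree (F x) = u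

theorem finrank_le_ins {K : Type} [AddCommMonoid K] [Module ℂ K]
    (F : K →ₗ[ℂ] MvPolynomial (Fin d) ℂ) (p : ℕ) (hp : ∀ x, (F x).IsHomogeneous p)
    (hinj : ∀ x, F x = 0 → x = 0) : Module.finrank ℂ K ≤ (ins F p).card := by
  classical
  let _ := Module.addCommMonoidToAddCommGroup ℂ (M := K)
  let T : K →ₗ[ℂ] (ins F p → ℂ) := LinearMap.pi fun u => (lcoeff (R := ℂ) u.1) ∘ₗ F
  have hT : Function.Injective T := by
    rw [injective_iff_map_eq_zero]
    intro x hx
    by_contra h0
    have h1 : F x ≠ 0 := fun h => h0 (hinj x h)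
    have h2 : (MonomialOrder.lex (σ := Fin d)).degree (F x) ∈ ins F p :=
      mem_filter.2 ⟨sum_degree (hp x) h1, x, h1, rfl⟩
    have h3 := congrFun hx ⟨_, h2⟩
    exact MonomialOrder.coeff_degree_ne_zero_iff.2 h1 h3
  have h := LinearMap.finrank_le_finrank_of_injective hT
  rw [Module.finrank_fintype_fun_eq_card, Fintype.card_coe] at h
  exact h

theorem card_le_finrank {W : Type} [AddCommMonoid W] [Module ℂ W] [Module.Finite ℂ W]
    (H : W →ₗ[ℂ] MvPolynomial (Fin d) ℂ) (S : Finset (Fin d →₀ ℕ))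
    (hS : ∀ s ∈ S, ∃ z, H z ≠ 0 ∧ (MonomialOrder.lex (σ := Fin d)).degree (H z) = s) :
    S.card ≤ Module.finrank ℂ W := by
  classical
  let _ := Module.addCommMonoidToAddCommGroup ℂ (M := W)
  choose! z hz1 hz2 using hS
  have hli : LinearIndependent ℂ (fun s : S => z s.1) := by
    apply LinearIndependent.of_comp H
    rw [linearIndependent_iff']
    intro T c hc
    by_contra hne
    push Not at hne
    obtain ⟨i, hi, hci⟩ := hne
    have hT' : (T.filter fun s => c s ≠ 0).Nonempty := ⟨i, mem_filter.2 ⟨hi, hci⟩⟩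
    obtain ⟨s0, hs0, hmax⟩ := exists_max_image (T.filter fun s => c s ≠ 0)
      (fun s => (MonomialOrder.lex (σ := Fin d)).toSyn s.1) hT'
    rw [mem_filter] at hs0
    have h1 := congrArg (coeff s0.1) hc
    rw [coeff_sum, coeff_zero, Finset.sum_eq_single s0] at h1
    · simp only [Function.comp_apply, coeff_smul, smul_eq_mul] at h1
      rcases mul_eq_zero.1 h1 with h2 | h2
      · exact hs0.2 h2
      · have h3 := MonomialOrder.coeff_degree_ne_zero_iff
          (m := MonomialOrder.lex (σ := Fin d)).2 (hz1 s0.1 s0.2)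
        rw [hz2 s0.1 s0.2] at h3
        exact h3 h2
    · intro s hs hss
      simp only [Function.comp_apply, coeff_smul, smul_eq_mul]
      by_cases h2 : c s = 0
      · rw [h2, zero_mul]
      · have h3 := hmax s (mem_filter.2 ⟨hs, h2⟩)
        have h4 : (MonomialOrder.lex (σ := Fin d)).toSyn s.1 <
            (MonomialOrder.lex (σ := Fin d)).toSyn s0.1 := by
          refine lt_of_le_of_ne h3 fun h => hss ?_
          exact Subtype.ext ((MonomialOrder.lex (σ := Fin d)).toSyn.injective h)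
        have h5 : coeff s0.1 (H (z s.1)) = 0 := by
          apply MonomialOrder.coeff_eq_zero_of_lt (m := MonomialOrder.lex (σ := Fin d))
          rw [hz2 s.1 s.2]
          exact h4
        rw [h5, mul_zero]
    · intro h2
      exact absurd hs0.1 h2
  have h := hli.fintype_card_le_finrank
  rwa [Fintype.card_coe] at h

theorem fibre (p q : ℕ) (A B : Finset (Fin d →₀ ℕ)) (hA : A ⊆ finsuppAntidiag univ p)
    (hB : B ⊆ finsuppAntidiag univ q) :
    A.card * B.card ≤ (p + q).choose p * ((A ×ˢ B).image fun x => x.1 + x.2).card := by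
  classical
  rw [← card_product]
  apply card_le_mul_card_image
  intro s hs
  obtain ⟨⟨u0, v0⟩, h0, hs0⟩ := mem_image.1 hs
  have hc : Multiset.card (Finsupp.toMultiset s) = p + q := by
    rw [mem_product] at h0
    have h1 := (mem_finsuppAntidiag.1 (hA h0.1)).1
    have h2 := (mem_finsuppAntidiag.1 (hB h0.2)).1
    rw [Finsupp.card_toMultiset, Finsupp.sum_fintype _ _ (by simp), ← hs0]
    simp only [Finsupp.add_apply, id_eq]
    rw [sum_add_distrib]
    exact congrArg₂ (· + ·) h1 h2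
  have h1 : (filter (fun x : (Fin d →₀ ℕ) × (Fin d →₀ ℕ) => x.1 + x.2 = s) (A ×ˢ B)).card ≤
      ((Multiset.powersetCard p (Finsupp.toMultiset s)).toFinset).card := by
    apply card_le_card_of_injOn (fun x => Finsupp.toMultiset x.1)
    · intro x hx
      rw [mem_coe, mem_filter, mem_product] at hx
      rw [mem_coe, Multiset.mem_toFinset, Multiset.mem_powersetCard]
      constructor
      · rw [← hx.2, map_add]
        exact Multiset.le_add_right _ _
      · have h2 := (mem_finsuppAntidiag.1 (hA hx.1.1)).1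
        rw [Finsupp.card_toMultiset, Finsupp.sum_fintype _ _ (by simp)]
        exact h2
    · intro x hx y hy hxy
      rw [mem_coe, mem_filter] at hx hy
      have h2 : x.1 = y.1 := by
        have h5 := congrArg Multiset.toFinsupp hxy
        simpa only [Finsupp.toMultiset_toFinsupp] using h5
      have h3 : x.2 = y.2 := by
        have h4 := hx.2.trans hy.2.symm
        rw [h2] at h4
        exact add_left_cancel h4
      exact Prod.ext h2 h3
  refine h1.trans ((Multiset.toFinset_card_le _).trans ?_)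
  rw [Multiset.card_powersetCard, hc]

theorem lemZ {p q : ℕ} {K L W : Type} [AddCommMonoid K] [Module ℂ K] [AddCommMonoid L]
    [Module ℂ L] [AddCommMonoid W] [Module ℂ W] [Module.Finite ℂ W]
    (F : K →ₗ[ℂ] MvPolynomial (Fin d) ℂ) (G : L →ₗ[ℂ] MvPolynomial (Fin d) ℂ)
    (H : W →ₗ[ℂ] MvPolynomial (Fin d) ℂ) (hF : ∀ x, F x = 0 → x = 0) (hG : ∀ x, G x = 0 → x = 0)
    (hFp : ∀ x, (F x).IsHomogeneous p) (hGq : ∀ x, (G x).IsHomogeneous q)
    (hmul : ∀ x y, ∃ z : W, H z = F x * G y) :
    Module.finrank ℂ K * Module.finrank ℂ L ≤ (p + q).choose p * Module.finrank ℂ W := by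
  classical
  have h1 := finrank_le_ins F p hFp hF
  have h2 := finrank_le_ins G q hGq hG
  have h3 := fibre p q (ins F p) (ins G q) (filter_subset _ _) (filter_subset _ _)
  have h4 : ((ins F p ×ˢ ins G q).image fun x => x.1 + x.2).card ≤ Module.finrank ℂ W := by
    apply card_le_finrank H
    intro s hs
    obtain ⟨⟨u, v⟩, h0, rfl⟩ := mem_image.1 hs
    rw [mem_product] at h0
    obtain ⟨-, x, hx, hxu⟩ := mem_filter.1 h0.1
    obtain ⟨-, y, hy, hyv⟩ := mem_filter.1 h0.2
    obtain ⟨z, hz⟩ := hmul x y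
    refine ⟨z, ?_, ?_⟩
    · rw [hz]
      exact mul_ne_zero hx hy
    · rw [hz, MonomialOrder.degree_mul hx hy]
      simp only at hxu hyv
      rw [hxu, hyv]
  calc Module.finrank ℂ K * Module.finrank ℂ L ≤ (ins F p).card * (ins G q).card :=
        Nat.mul_le_mul h1 h2
    _ ≤ _ := h3
    _ ≤ _ := Nat.mul_le_mul_left _ h4

/-! ### The polynomial of an element of a symmetric power -/

open Vale.Agent.P181 Vale.Agent.P181.H280 Vale.Agent.P181.H54 Vale.Agent.P181.FR

section Poly

variable {M : Type} [AddCommGroup M] [Module ℂ M]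

/-- the polynomial of `x` in the coordinates `φ i` -/
noncomputable def pol (φ : Fin d → Module.Dual ℂ M) (b : ℕ) :
    (Sym[ℂ]^b M) →ₗ[ℂ] MvPolynomial (Fin d) ℂ where
  toFun x := ∑ w : Fin b → Fin d, C (symEval (fun p => φ (w p)) x) * ∏ p, X (w p)
  map_add' x y := by
    rw [← Finset.sum_add_distrib]
    refine Finset.sum_congr rfl fun w _ => ?_
    rw [map_add, C_add, add_mul]
  map_smul' c x := by
    rw [RingHom.id_apply, Finset.smul_sum]
    refine Finset.sum_congr rfl fun w _ => ?_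
    rw [map_smul, smul_eq_mul, C_mul, mul_assoc, smul_eq_C_mul]

theorem pol_hom (φ : Fin d → Module.Dual ℂ M) (b : ℕ) (x : Sym[ℂ]^b M) :
    (pol φ b x).IsHomogeneous b := by
  change (∑ w : Fin b → Fin d, C (symEval (fun p => φ (w p)) x) * ∏ p, X (w p)).IsHomogeneous b
  refine IsHomogeneous.sum _ _ _ fun w _ => ?_
  have h1 : (∏ p : Fin b, (X (w p) : MvPolynomial (Fin d) ℂ)).IsHomogeneous b := by
    have h2 := IsHomogeneous.prod (univ : Finset (Fin b))
      (fun p => (X (w p) : MvPolynomial (Fin d) ℂ)) (fun _ => 1) (fun p _ => isHomogeneous_X ℂ _)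
    simpa using h2
  have h3 := (isHomogeneous_C (Fin d) (symEval (fun p => φ (w p)) x)).mul h1
  rwa [zero_add] at h3

theorem eval_pol (φ : Fin d → Module.Dual ℂ M) (b : ℕ) (x : Sym[ℂ]^b M) (c : Fin d → ℂ) :
    eval c (pol φ b x) = symEval (fun _ => ∑ i, c i • φ i) x := by
  classical
  change eval c (∑ w : Fin b → Fin d, C (symEval (fun p => φ (w p)) x) * ∏ p, X (w p)) = _
  rw [← symEvalM_apply, MultilinearMap.map_sum, map_sum]
  refine Finset.sum_congr rfl fun w _ => ?_
  rw [map_mul, eval_C, map_prod, MultilinearMap.map_smul_univ, symEvalM_apply, smul_eq_mul,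
    mul_comm]
  simp only [eval_X]

theorem pol_inj [Module.Finite ℂ M] (B : Module.Basis (Fin d) ℂ (Module.Dual ℂ M)) (b : ℕ)
    (x : Sym[ℂ]^b M) (h : pol (fun i => B i) b x = 0) : x = 0 := by
  apply pv_inj
  intro ψ
  have h1 := eval_pol (fun i => B i) b x (fun i => B.repr ψ i)
  rw [h, map_zero, B.sum_repr] at h1
  exact h1.symm

/-- the product of two elements -/
theorem exists_prod {p q : ℕ} (φ : Fin d → Module.Dual ℂ M) (x : Sym[ℂ]^p M)
    (y : Sym[ℂ]^q M) : ∃ z : Sym[ℂ]^(p + q) M, pol φ (p + q) z = pol φ p x * pol φ q y ∧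
      ∀ ψ : Module.Dual ℂ M, symEval (fun _ => ψ) z =
        symEval (fun _ => ψ) x * symEval (fun _ => ψ) y := by
  obtain ⟨L, hL⟩ := exists_mul (M := M) (b := p) (B := q) y
  have hp : (Fintype.card (Equiv.Perm (Fin p)) : ℂ) ≠ 0 := fac_ne p
  have hq : (Fintype.card (Equiv.Perm (Fin q)) : ℂ) ≠ 0 := fac_ne q
  have hpq : (Fintype.card (Equiv.Perm (Fin (p + q))) : ℂ) ≠ 0 := fac_ne (p + q)
  set c : ℂ := (Fintype.card (Equiv.Perm (Fin p)) : ℂ) * (Fintype.card (Equiv.Perm (Fin q)) : ℂ) /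
    (Fintype.card (Equiv.Perm (Fin (p + q))) : ℂ) with hc
  have h1 : ∀ ψ : Module.Dual ℂ M, symEval (fun _ => ψ) (c • L x) =
      symEval (fun _ => ψ) x * symEval (fun _ => ψ) y := by
    intro ψ
    have h2 := hL ψ x
    rw [map_smul, smul_eq_mul, hc, div_mul_eq_mul_div, h2, mul_div_assoc, mul_comm]
    rw [div_mul_eq_mul_div, mul_comm _ (Fintype.card (Equiv.Perm (Fin (p + q))) : ℂ)]
    rw [mul_div_assoc, mul_div_cancel₀]
    · ring
    · exact hpq
  refine ⟨c • L x, ?_, h1⟩
  apply MvPolynomial.funext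
  intro e
  rw [map_mul, eval_pol, eval_pol, eval_pol, h1]

end Poly

theorem prod_hw {p q a m : ℕ} {al be : Fin m → ℕ} {x : Sym[ℂ]^p (Sym[ℂ]^a (Fin m → ℂ))}
    {y : Sym[ℂ]^q (Sym[ℂ]^a (Fin m → ℂ))} {z : Sym[ℂ]^(p + q) (Sym[ℂ]^a (Fin m → ℂ))}
    (hx : x ∈ hwSpace al (plethAct p a m)) (hy : y ∈ hwSpace be (plethAct q a m))
    (hz : ∀ ψ : Module.Dual ℂ (Sym[ℂ]^a (Fin m → ℂ)), symEval (fun _ => ψ) z =
        symEval (fun _ => ψ) x * symEval (fun _ => ψ) y) :
    z ∈ hwSpace (fun i => al i + be i) (plethAct (p + q) a m) := by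
  intro g hg
  have hx1 : symMap p (symMap a (Matrix.toLin' g)) x = (∏ i, g i i ^ al i) • x := hx g hg
  have hy1 : symMap q (symMap a (Matrix.toLin' g)) y = (∏ i, g i i ^ be i) • y := hy g hg
  have h1 : symMap (p + q) (symMap a (Matrix.toLin' g)) z -
      (∏ i, g i i ^ (al i + be i)) • z = 0 := by
    apply pv_inj
    intro φ
    rw [map_sub, map_smul, symEval_symMap, sub_eq_zero, smul_eq_mul]
    have e1 := hz (φ ∘ₗ symMap a (Matrix.toLin' g))
    have e3 : symEval (fun _ : Fin p => φ ∘ₗ symMap a (Matrix.toLin' g)) x =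
        (∏ i, g i i ^ al i) * symEval (fun _ => φ) x := pv_eigen _ _ _ hx1 φ
    have e4 : symEval (fun _ : Fin q => φ ∘ₗ symMap a (Matrix.toLin' g)) y =
        (∏ i, g i i ^ be i) * symEval (fun _ => φ) y := pv_eigen _ _ _ hy1 φ
    have h4 : ∏ i, g i i ^ (al i + be i) = (∏ i, g i i ^ al i) * ∏ i, g i i ^ be i := by
      rw [← Finset.prod_mul_distrib]
      exact Finset.prod_congr rfl fun i _ => pow_add _ _ _
    rw [e1, e3, e4, h4, hz φ]
    ring
  exact eq_of_sub_zero' h1

theorem fin_hw (b a m : ℕ) (mu : Fin m → ℕ) :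
    Module.Finite ℂ (hwSpace mu (plethAct b a m)) := by
  let _ := Module.addCommMonoidToAddCommGroup ℂ (M := Pleth b a m)
  exact inferInstance

theorem zedS : ZedS := by
  intro p q a m al be
  have hfin := fin_hw (p + q) a m (fun i => al i + be i)
  let M := Sym[ℂ]^a (Fin m → ℂ)
  let B : Module.Basis (Fin (Module.finrank ℂ (Module.Dual ℂ M))) ℂ (Module.Dual ℂ M) :=
    Module.finBasis ℂ (Module.Dual ℂ M)
  have key := lemZ (p := p) (q := q)
    ((pol (fun i => B i) p) ∘ₗ (hwSpace al (plethAct p a m)).subtype)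
    ((pol (fun i => B i) q) ∘ₗ (hwSpace be (plethAct q a m)).subtype)
    ((pol (fun i => B i) (p + q)) ∘ₗ
      (hwSpace (fun i => al i + be i) (plethAct (p + q) a m)).subtype)
    (fun x h => Subtype.ext (pol_inj B p x.1 h)) (fun x h => Subtype.ext (pol_inj B q x.1 h))
    (fun x => pol_hom _ _ _) (fun x => pol_hom _ _ _) (fun x y => by
      obtain ⟨z, hz1, hz2⟩ := exists_prod (fun i => B i) x.1 y.1
      exact ⟨⟨z, prod_hw x.2 y.2 hz2⟩, hz1⟩)
  exact key

end Vale.Agent.P181.NR.H761
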